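import Mathlib

/-!
Polynomials of degree at most two without critical points are coordinates.
-/

noncomputable section

open MvPolynomial Finset

namespace Vale.Agent.P295

variable {K : Type*} [Field K] {σ τ : Type*}

/-- The chain rule for a derivation composed with an algebra map out of a polynomial ring. -/
theorem chain_rule [Fintype σ] (φ : MvPolynomial σ K →ₐ[K] MvPolynomial τ K) (i : τ)
    (f : MvPolynomial σ K) :
    pderiv i (φ f) = ∑ j, φ (pderiv j f) * pderiv i (φ (X j)) := by
  classical
  induction f using MvPolynomial.induction_on with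
  | C a => simp [← MvPolynomial.algebraMap_eq]
  | add p q hp hq => simp [hp, hq, add_mul, sum_add_distrib]
  | mul_X p k hp =>
    rw [map_mul, pderiv_mul, hp]
    simp only [pderiv_mul, pderiv_X, map_add, map_mul, add_mul, sum_add_distrib, sum_mul]
    congr 1
    · exact sum_congr rfl fun j _ => by ring
    · rw [sum_eq_single k]
      · simp
      · intro j _ hj
        simp [Pi.single_eq_of_ne hj.symm]
      · simp

/-- A stable coordinate has no critical point. -/
theorem no_critical_of_stable [Fintype σ] {f : MvPolynomial σ K}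
    (e : MvPolynomial (σ ⊕ τ) K ≃ₐ[K] MvPolynomial (σ ⊕ τ) K) (i : σ ⊕ τ)
    (he : e (rename Sum.inl f) = X i) (z : σ → K) : ∃ j, eval z (pderiv j f) ≠ 0 := by
  classical
  by_contra hcon
  simp only [not_exists, not_not] at hcon
  let φ : MvPolynomial σ K →ₐ[K] MvPolynomial (σ ⊕ τ) K := e.toAlgHom.comp (rename Sum.inl)
  have h := chain_rule φ i f
  rw [show φ f = X i from he, pderiv_X, Pi.single_eq_same] at h
  let χ : MvPolynomial (σ ⊕ τ) K →ₐ[K] K := (aeval (Sum.elim z 0)).comp e.symm.toAlgHom
  have hχ : ∀ g, χ (φ g) = eval z g := fun g => by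
    show aeval (Sum.elim z 0) (e.symm (e (rename Sum.inl g))) = _
    rw [AlgEquiv.symm_apply_apply, aeval_rename, Sum.elim_comp_inl]
    rfl
  have h1 := congrArg χ h
  rw [map_one, map_sum, sum_eq_zero fun j _ => by rw [map_mul, hχ, hcon j, zero_mul]] at h1
  exact one_ne_zero h1

/-- A polynomial of degree at most one is an affine function. -/
theorem eval_affine [Fintype σ] (p : MvPolynomial σ K) (hp : p.totalDegree ≤ 1) :
    ∃ (c : K) (l : (σ → K) →ₗ[K] K), ∀ z, eval z p = c + l z := by
  classical
  refine ⟨eval 0 p, ∑ j, coeff (Finsupp.single j 1) p • LinearMap.proj j, fun z => ?_⟩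
  simp only [LinearMap.coe_sum, LinearMap.smul_apply, Finset.sum_apply, LinearMap.proj_apply,
    smul_eq_mul]
  have hmono : ∀ d ∈ p.support, d = 0 ∨ ∃ j, d = Finsupp.single j 1 := by
    intro d hd
    have hle : (d.sum fun _ e => e) ≤ 1 := (le_totalDegree hd).trans hp
    by_cases hd0 : d = 0
    · exact Or.inl hd0
    · obtain ⟨j, hj⟩ := Finsupp.ne_iff.mp hd0
      rw [Finsupp.coe_zero, Pi.zero_apply] at hj
      refine Or.inr ⟨j, Finsupp.ext fun k => ?_⟩
      rw [Finsupp.sum_fintype _ _ (fun _ => rfl)] at hle
      have hj1 : d j ≤ 1 := le_trans (single_le_sum (fun k _ => Nat.zero_le (d k)) (mem_univ j)) hle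
      by_cases hk : k = j
      · subst hk; simp; omega
      · have h2 := sum_le_sum_of_subset (f := fun k => d k) (subset_univ ({j, k} : Finset σ))
        rw [sum_pair (Ne.symm hk)] at h2
        simp [Ne.symm hk]; omega
  conv_lhs => rw [p.as_sum, map_sum]
  conv_rhs => arg 1; rw [p.as_sum, map_sum]
  simp only [eval_monomial]
  rw [← sub_eq_iff_eq_add', ← sum_sub_distrib]
  have hterm : ∀ d ∈ p.support, coeff d p * (d.prod fun k e => z k ^ e) -
      coeff d p * (d.prod fun k e => (0 : σ → K) k ^ e) =
      ∑ j, if d = Finsupp.single j 1 then coeff d p * z j else 0 := by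
    intro d hd
    rcases hmono d hd with rfl | ⟨j, rfl⟩
    · simp [eq_comm (a := (0 : σ →₀ ℕ)), Finsupp.single_eq_zero]
    · rw [sum_eq_single j]
      · simp
      · intro k _ hk
        rw [if_neg]
        intro hh
        exact hk (Finsupp.single_left_injective one_ne_zero hh).symm
      · simp
  rw [sum_congr rfl hterm, sum_comm]
  refine sum_congr rfl fun j _ => ?_
  rw [sum_ite_eq']
  split
  · rfl
  · rename_i h
    rw [notMem_support_iff.mp h, zero_mul]

/-- A polynomial whose derivative in a fixed direction is `1` is a coordinate. -/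
theorem coordinate_of_direction [Fintype σ] [CharZero K] {f : MvPolynomial σ K} {v : σ → K}
    (hv : ∑ j, C (v j) * pderiv j f = 1) :
    ∃ (e : MvPolynomial σ K ≃ₐ[K] MvPolynomial σ K) (i : σ), e f = X i := by
  classical
  obtain ⟨i, hi⟩ : ∃ i, v i ≠ 0 := by
    by_contra hcon
    simp only [not_exists, not_not] at hcon
    simp [hcon] at hv
  let a : MvPolynomial σ K →ₐ[K] MvPolynomial σ K :=
    aeval fun j => if j = i then C (v i) * X i else X j + C (v j) * X i
  let b : MvPolynomial σ K →ₐ[K] MvPolynomial σ K :=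
    aeval fun j => if j = i then C (v i)⁻¹ * X i else X j - C (v j * (v i)⁻¹) * X i
  have hab : a.comp b = AlgHom.id K _ := by
    refine algHom_ext fun j => ?_
    simp only [AlgHom.comp_apply, AlgHom.id_apply, a, b, aeval_X]
    by_cases hj : j = i
    · subst hj
      rw [if_pos rfl, map_mul, aeval_C, aeval_X, if_pos rfl, ← mul_assoc, algebraMap_eq, ← C_mul,
        inv_mul_cancel₀ hi, C_1, one_mul]
    · rw [if_neg hj, map_sub, map_mul, aeval_C, aeval_X, aeval_X, if_neg hj, if_pos rfl,
        ← mul_assoc, algebraMap_eq, ← C_mul, mul_assoc (v j), inv_mul_cancel₀ hi, mul_one,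
        add_sub_cancel_right]
  have hba : b.comp a = AlgHom.id K _ := by
    refine algHom_ext fun j => ?_
    simp only [AlgHom.comp_apply, AlgHom.id_apply, a, b, aeval_X]
    by_cases hj : j = i
    · subst hj
      rw [if_pos rfl, map_mul, aeval_C, aeval_X, if_pos rfl, ← mul_assoc, algebraMap_eq, ← C_mul,
        mul_inv_cancel₀ hi, C_1, one_mul]
    · rw [if_neg hj, map_add, map_mul, aeval_C, aeval_X, aeval_X, if_neg hj, if_pos rfl,
        ← mul_assoc, algebraMap_eq, ← C_mul, sub_add_cancel]
  have hder : pderiv i (a f) = 1 := by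
    rw [chain_rule a i f]
    have hX : ∀ j, pderiv i (a (X j)) = C (v j) := by
      intro j
      by_cases hj : j = i
      · subst hj
        simp [a]
      · simp [a, hj, pderiv_X]
    simp only [hX]
    have := congrArg a hv
    rw [map_sum, map_one] at this
    rw [← this]
    exact sum_congr rfl fun j _ => by rw [map_mul, mul_comm]; simp [a]
  set g := a f - X i with hg
  have hg0 : pderiv i g = 0 := by rw [hg, map_sub, hder, pderiv_X]; simp
  have hvars : i ∉ g.vars := by
    intro hmem
    obtain ⟨d, hd, hdi⟩ := (mem_vars_iff_mem_support i).mp hmem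
    rw [Finsupp.mem_support_iff] at hdi
    have := coeff_pderiv (i := i) (m := d - Finsupp.single i 1) (p := g)
    rw [hg0, coeff_zero, tsub_add_cancel_of_le (Finsupp.single_le_iff.mpr (by omega))] at this
    have hc : (((((d - Finsupp.single i 1 : σ →₀ ℕ) : σ → ℕ) i : ℕ) : K) + 1) ≠ 0 := Nat.cast_add_one_ne_zero _
    exact (mem_support_iff.mp hd) ((mul_eq_zero.mp this.symm).resolve_right hc)
  let s : MvPolynomial σ K →ₐ[K] MvPolynomial σ K := aeval fun j => if j = i then X i - g else X j
  let t : MvPolynomial σ K →ₐ[K] MvPolynomial σ K := aeval fun j => if j = i then X i + g else X j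
  have hfix : ∀ (φ : MvPolynomial σ K →ₐ[K] MvPolynomial σ K), (∀ j, j ≠ i → φ (X j) = X j) →
      φ g = g := by
    intro φ hφ
    exact hom_congr_vars (f₁ := φ.toRingHom) (f₂ := RingHom.id _) (by ext; simp)
      (fun j hj _ => hφ j fun h => hvars (h ▸ hj)) rfl
  have hs : s g = g := hfix s fun j hj => by simp [s, hj]
  have ht : t g = g := hfix t fun j hj => by simp [t, hj]
  have hst : s.comp t = AlgHom.id K _ := algHom_ext fun j => by
    by_cases hj : j = i
    · subst hj
      have : t (X j) = X j + g := by simp [t]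
      have h2 : s (X j) = X j - g := by simp [s]
      rw [AlgHom.comp_apply, this, map_add, hs, h2]; simp
    · simp [s, t, hj]
  have hts : t.comp s = AlgHom.id K _ := algHom_ext fun j => by
    by_cases hj : j = i
    · subst hj
      have : s (X j) = X j - g := by simp [s]
      have h2 : t (X j) = X j + g := by simp [t]
      rw [AlgHom.comp_apply, this, map_sub, ht, h2]; simp
    · simp [s, t, hj]
  refine ⟨(AlgEquiv.ofAlgHom a b hab hba).trans (AlgEquiv.ofAlgHom s t hst hts), i, ?_⟩
  show s (a f) = X i
  have h2 : s (X i) = X i - g := by simp [s]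
  rw [show a f = X i + g by rw [hg]; ring, map_add, hs, h2]
  ring

/-- A polynomial of degree at most two without critical points is a coordinate. -/
theorem coordinate_of_no_critical [Fintype σ] [CharZero K] {f : MvPolynomial σ K}
    (hdeg : f.totalDegree ≤ 2) (hcrit : ∀ z : σ → K, ∃ j, eval z (pderiv j f) ≠ 0) :
    ∃ (e : MvPolynomial σ K ≃ₐ[K] MvPolynomial σ K) (i : σ), e f = X i := by
  classical
  have hdeg' : ∀ j, (pderiv j f).totalDegree ≤ 1 := by
    intro j
    refine Finset.sup_le fun d hd => ?_
    rw [mem_support_iff, coeff_pderiv] at hd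
    have h := (le_totalDegree (mem_support_iff.mpr (left_ne_zero_of_mul hd))).trans hdeg
    rw [Finsupp.sum_add_index' (fun _ => rfl) (fun _ _ _ => rfl), Finsupp.sum_single_index rfl] at h
    simp only [Finsupp.sum] at h ⊢
    omega
  choose c l hl using fun j => eval_affine (pderiv j f) (hdeg' j)
  let L : (σ → K) →ₗ[K] (σ → K) := LinearMap.pi l
  have hnot : c ∉ LinearMap.range L := by
    rintro ⟨z, hz⟩
    obtain ⟨j, hj⟩ := hcrit (-z)
    refine hj ?_
    rw [hl, map_neg, ← congrFun hz j]
    simp [L]
  obtain ⟨u, hu1, hu0⟩ := Submodule.exists_dual_map_eq_bot_of_notMem hnot inferInstance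
  refine coordinate_of_direction (v := fun j => u (Pi.single j 1) / u c) ?_
  refine MvPolynomial.funext fun z => ?_
  have hLz : u (L z) = 0 := by
    have : u (L z) ∈ Submodule.map u (LinearMap.range L) := ⟨L z, ⟨z, rfl⟩, rfl⟩
    rwa [hu0, Submodule.mem_bot] at this
  have key : ∀ w : σ → K, ∑ j, u (Pi.single j 1) * w j = u w := by
    intro w
    conv_rhs => rw [pi_eq_sum_univ' w, map_sum]
    exact sum_congr rfl fun j _ => by rw [map_smul, smul_eq_mul, mul_comm]
  simp only [map_sum, map_mul, eval_C, map_one, div_mul_eq_mul_div, ← sum_div, hl]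
  rw [show ∑ j, u (Pi.single j 1) * (c j + l j z) = u (c + L z) from key (c + L z), map_add, hLz,
    add_zero, div_self hu1]

end Vale.Agent.P295
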